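import Crest.Agent.X262.Ex19.Val
import Crest.Agent.X262.Ends.Pl
import Crest.Agent.X262.Vb37.Univ

/-!
# Row 262, road B, ENDS (helper19), part 2: `ExStmt`

* `cp_gen` : coprimality of a family of forms passes to generisations;
* `ex_of`  : `MobStmt → ExStmt`.
-/

set_option autoImplicit false
set_option linter.unusedSectionVars false

open Polynomial hiding funext

noncomputable section

namespace Crest.Agent.X262.Ex19

open Crest.Agent.X277 Crest.Agent.X277.BD Crest.Agent.X277.Pst Crest.Agent.X277.BD.Cyc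
open Crest.Agent.X262.Vb Crest.Agent.X262.Vb37 Crest.Agent.X262.Ends
open Crest.Agent.X262.Bub96 (hv Tr)
open Crest.Agent.X262.Bub96.Tr (dot)

variable {J : Type} [Fintype J] [DecidableEq J] {io : J → Type} [∀ j, Fintype (io j)]
  [∀ j, DecidableEq (io j)] {d : J → ℕ}

theorem cp_gen {R K E : Type} [CommRing R] [Field K] [Field E] (φ : R →+* K) (ψ : R →+* E)
    (h : RingHom.ker ψ ≤ RingHom.ker φ) {F : (j : J) → io j → R[X]}
    (h1 : ∀ j i, (F j i).natDegree ≤ d j) (h2 : ∀ j, ∃ i, (F j i).coeff (d j) = 1)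
    (hc : Cp d fun j i => (F j i).map φ) : Cp d fun j i => (F j i).map ψ := by
  let α := algebraMap E (AlgebraicClosure E)
  refine cp_of_closed α (fun j i => natDegree_map_le.trans (h1 j i)) fun j t => ?_
  obtain ⟨i₀, hi₀⟩ := h2 j
  rcases t with _ | t
  · exact ⟨i₀, by simp [hv, hi₀]⟩
  by_contra! h0
  have := RingHom.ker_isPrime φ
  obtain ⟨V, hV, hP⟩ := exists_centre (α.comp ψ) (RingHom.ker φ)
    fun r hr => h (α.injective (hr.trans (map_zero α).symm))
  let χ : R →+* V := (α.comp ψ).codRestrict V hV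
  have h3 : ∀ i, ((F j i).map χ).eval₂ (algebraMap V _) t = 0 := fun i => by
    rw [eval₂_map, ← h0 i, hv, Polynomial.map_map, eval_map]
    rfl
  obtain ⟨t₁, rfl⟩ := IsIntegrallyClosed.isIntegral_iff.1
    (⟨_, (monic_of_natDegree_le_of_coeff_eq_one _ (h1 j i₀) hi₀).map χ, h3 i₀⟩ : IsIntegral V t)
  let ρ := (IsLocalRing.residue V).comp χ
  have hρ : ∀ r, ρ r = 0 ↔ φ r = 0 := fun r =>
    ((IsLocalRing.residue_eq_zero_iff _).trans (V.valuation_lt_one_iff _)).trans (hP r)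
  let a := algebraMap R (RingHom.ker φ).ResidueField
  let l₁ := Ideal.ResidueField.lift (RingHom.ker φ) φ le_rfl fun r hr => Ne.isUnit hr
  let l₂ := Ideal.ResidueField.lift (RingHom.ker φ) ρ (fun r hr => (hρ r).2 hr)
    fun r hr => Ne.isUnit (mt (hρ r).1 hr)
  have e₁ : l₁.comp a = φ := RingHom.ext fun r => by simp [l₁, a]
  have e₂ : l₂.comp a = ρ := RingHom.ext fun r => by simp [l₂, a]
  have h4 : Cp d fun j i => (F j i).map a :=
    cp_of_closed ((algebraMap K (AlgebraicClosure K)).comp l₁)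
      (fun j i => natDegree_map_le.trans (h1 j i)) fun j t => by
        simpa only [Polynomial.map_map, RingHom.comp_assoc, e₁] using
          cp_hv (hc.map (algebraMap K (AlgebraicClosure K))) j t
  obtain ⟨i, hi⟩ := cp_hv (h4.map l₂) j (some (IsLocalRing.residue V t₁))
  refine hi ?_
  have h5 : ((F j i).map χ).eval t₁ = 0 := Subtype.ext ((eval₂_at_apply _ _).symm.trans (h3 i))
  rw [Polynomial.map_map, e₂, hv, ← Polynomial.map_map, eval_map, eval₂_at_apply, h5, map_zero]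

section pf

variable {E E' : Type} [Field E] [Algebra ℂ E] [Field E'] [Algebra ℂ E']
  {q : MvPolynomial (Vr io) ℂ} {κ : J → ℕ}

theorem hv_pf (h : MH q κ) {g : (j : J) → io j → E[X]} (hg : ∀ j i, (g j i).natDegree ≤ d j) :
    (pf g q).natDegree ≤ dot κ d ∧ ∀ t, hv (dot κ d) (pf g q) t = pv (pt d g t) q := by
  have h1 : (∑ j, (κ j : ℤ) * d j) = (dot κ d : ℕ) := by simp only [dot]; push_cast; rfl
  have h2 := (Tree87.MZ.of_MH h).sb hg
  rw [h1] at h2
  exact ⟨Tree87.DL_nat.1 h2.1, fun t => (Tree87.ev_eq_hv _ _ _).symm.trans (h2.2 t)⟩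

theorem pf_map {R : Type} [CommRing R] [Algebra ℂ R] (r : R →ₐ[ℂ] E) (g : (j : J) → io j → R[X])
    (q : MvPolynomial (Vr io) ℂ) : pf (fun j i => (g j i).map (r : R →+* E)) q =
      (MvPolynomial.aeval (fun v : Vr io => g v.1 v.2) q).map (r : R →+* E) :=
  (MvPolynomial.comp_aeval_apply (fun v : Vr io => g v.1 v.2) (mapAlgHom r) q).symm

theorem pf_eq_zero (h : MH q κ) {g : (j : J) → io j → E[X]} (hg : ∀ j i, (g j i).natDegree ≤ d j)
    (h0 : ∀ t, pv (pt d g (some t)) q = 0) : pf g q = 0 :=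
  have := inf_of_alg E
  Polynomial.funext fun t => ((hv_pf h hg).2 (some t)).trans ((h0 t).trans eval_zero.symm)

theorem pf_scf (h : MH q κ) {g : (j : J) → io j → E[X]} (hg : ∀ j i, (g j i).natDegree ≤ d j)
    {s : J → E} (hs : ∀ j, s j ≠ 0) (h0 : pf g q = 0) : pf (scf s g) q = 0 :=
  pf_eq_zero h (fun j i => (natDegree_C_mul_le _ _).trans (hg j i)) fun t => by
    have e : pt d (scf s g) (some t) = fun j i => s j * pt d g (some t) j i :=
      funext fun j => funext fun i => hv_C_mul _ _ _ _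
    rw [e, (Tree87.MZ.of_MH h).pv_scl hs, ← (hv_pf h hg).2, h0]
    simp [hv]

end pf

theorem fm_gen {M K : Type} [Fintype M] [Field K] [Algebra ℂ K] (η : Dat io d M K)
    {p0 : (j : J) → io j × Fin (d j + 1)} (a b c : M)
    (h0 : ∀ j, (η.f j (p0 j).1).coeff (p0 j).2 ≠ 0) :
    fm p0 a b c (gen η p0 a b c) = scf (fun j => ((η.f j (p0 j).1).coeff (p0 j).2)⁻¹) η.f := by
  funext j i
  ext l
  rw [scf, coeff_C_mul]
  by_cases hl : l < d j + 1
  · rw [coeff_fm p0 a b c _ j i ⟨l, hl⟩, cf]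
    split_ifs with h
    · have := h0 j
      rw [← h] at this ⊢
      exact (inv_mul_cancel₀ this).symm
    · exact div_eq_inv_mul _ _
  · rw [coeff_eq_zero_of_natDegree_lt ((natDegree_fm p0 a b c _ j i).trans_lt (by omega)),
      coeff_eq_zero_of_natDegree_lt ((η.cp.1 j i).trans_lt (by omega)), mul_zero]

theorem exists_minor {K : Type} [Field K] {f : (j : J) → io j → K[X]} (h : Cp d f) {j : J}
    (h1 : d j = 1) :
    ∃ i i', (f j i).coeff 0 * (f j i').coeff 1 ≠ (f j i').coeff 0 * (f j i).coeff 1 := by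
  by_contra! h0
  obtain ⟨i₀, hi₀⟩ := h.2.1 j
  rw [h1] at hi₀
  obtain ⟨i, hi⟩ := cp_hv h j (some (-(f j i₀).coeff 0 / (f j i₀).coeff 1))
  refine hi ?_
  rw [hv, eq_X_add_C_of_natDegree_le_one (p := f j i) (h1 ▸ h.1 j i)]
  simp only [eval_add, eval_mul, eval_C, eval_X]
  field_simp
  linear_combination h0 i i₀

/-- **a component of good reduction with generic normal direction** -/
theorem ex_of (hM : MobStmt) : ExStmt := by
  intro J _ _ io _ _ A _ T d ν j₁ K _ _ _ f hT hL M K₀ L _ _ _ _ _ _ _ ξ θ hu hc hθ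
  classical
  obtain ⟨a, b, c, hn⟩ := hu.1
  choose i₀ hi₀ using hL.cp.2.1
  let p0 : (j : J) → io j × Fin (d j + 1) := fun j => (i₀ j, Fin.last _)
  have h0 : ∀ j, (ξ.f j (p0 j).1).coeff (p0 j).2 ≠ 0 := fun j => univ_coeff_ne hu j _ le_rfl
  have h0' : ∀ j, ((ξ.map θ).f j (p0 j).1).coeff (p0 j).2 ≠ 0 := fun j => by
    rw [Dat.map, coeff_map]
    exact (map_ne_zero θ).2 (h0 j)
  let R := MvPolynomial (Ix p0 a b c) ℂ
  let F : (j : J) → io j → R[X] := fm p0 a b c MvPolynomial.X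
  have F1 : ∀ j i, (F j i).natDegree ≤ d j := natDegree_fm p0 a b c _
  have F2 : ∀ j, (F j (i₀ j)).coeff (d j) = 1 := fun j =>
    (coeff_fm p0 a b c _ j (i₀ j) (Fin.last _)).trans (dif_pos rfl)
  have F3 : ∀ {S : Type} [CommRing S] [Algebra ℂ S] (G : Ix p0 a b c → S) j i,
      (F j i).map (MvPolynomial.aeval G : R →ₐ[ℂ] S) = fm p0 a b c G j i := fun G j i => by
    rw [map_fm]
    congr 1
    exact funext (MvPolynomial.aeval_X G)
  let sA : Cx T d → R := fun x =>
    (MvPolynomial.aeval (fun v : Vr io => F v.1 v.2) (T.F x.1)).coeff x.2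
  have hsA : ∀ {E : Type} [Field E] [Algebra ℂ E] (r : R →ₐ[ℂ] E) x,
      eqc T d (fun j i => (F j i).map (r : R →+* E)) x = r (sA x) := fun r x => by
    rw [eqc, pf_map, coeff_map]
    rfl
  -- the generic point and the special point
  let φ : R →ₐ[ℂ] L := MvPolynomial.aeval (gen (ξ.map θ) p0 a b c)
  let η : Dat io d M K := ⟨f, fun _ => none, hL.cp⟩
  let φ₀ : R →ₐ[ℂ] K := MvPolynomial.aeval (gen η p0 a b c)
  let s : J → L := fun j => (((ξ.map θ).f j (p0 j).1).coeff (p0 j).2)⁻¹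
  have e : (fun j i => (F j i).map (φ : R →+* L)) = scf s (ξ.map θ).f :=
    (funext fun j => funext (F3 _ j)).trans (fm_gen _ a b c h0')
  have e₀ : (fun j i => (F j i).map (φ₀ : R →+* K)) = scf (fun j => ((f j (i₀ j)).coeff (d j))⁻¹) f :=
    (funext fun j => funext (F3 _ j)).trans (fm_gen η (p0 := p0) a b c hi₀)
  have hφ : Function.Injective φ := by
    have e1 : gen (ξ.map θ) p0 a b c = θ ∘ gen ξ p0 a b c := funext fun x => by
      rcases x with ⟨j, p⟩ | q
      · simp [Vb37.gen, Dat.map]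
      · rcases h : ξ.x q.1 with _ | t <;> simp [Vb37.gen, Dat.map, h]
    have := (indep_gen hu hn h0).2.map' (f := θ) θ.injective
    rwa [← e1] at this
  have hs : sA ≠ 0 := fun h => by
    obtain ⟨α, hα⟩ := hT
    obtain ⟨y, hy⟩ : ∃ y : Vr io → ℂ,
        MvPolynomial.eval y (T.F α * ∏ j, MvPolynomial.X ⟨j, i₀ j⟩) ≠ 0 := by
      by_contra! h1
      exact mul_ne_zero hα (Finset.prod_ne_zero_iff.2 fun j _ => MvPolynomial.X_ne_zero _)
        (MvPolynomial.funext fun y => (h1 y).trans (map_zero _).symm)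
    rw [map_mul, map_prod] at hy
    have hy0 : ∀ j, y ⟨j, i₀ j⟩ ≠ 0 := fun j => by
      simpa using Finset.prod_ne_zero_iff.1 (right_ne_zero_of_mul hy) j (Finset.mem_univ j)
    let G : Ix p0 a b c → ℂ := Sum.elim (fun x => (y ⟨x.1, i₀ x.1⟩)⁻¹ * y ⟨x.1, x.2.1.1⟩) 0
    have h1 := hsA (MvPolynomial.aeval G) ⟨α, Fin.last _⟩
    rw [h, Pi.zero_apply, map_zero] at h1
    let r : R →ₐ[ℂ] ℂ := MvPolynomial.aeval G
    have h2 := (hv_pf (T.hom α) (g := fun j i => (F j i).map (r : R →+* ℂ))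
      fun j i => natDegree_map_le.trans (F1 j i)).2 none
    have h3 : pt d (fun j i => (F j i).map (r : R →+* ℂ)) none =
        fun j i => (y ⟨j, i₀ j⟩)⁻¹ * y ⟨j, i⟩ := funext fun j => funext fun i => by
      rw [pt, F3]
      refine (coeff_fm p0 a b c G j i (Fin.last _)).trans ?_
      rw [cf]
      split_ifs with h
      · rw [show i = i₀ j from congrArg Prod.fst h, inv_mul_cancel₀ (hy0 j)]
      · rfl
    rw [h3, (Tree87.MZ.of_MH (T.hom α)).pv_scl (fun j => inv_ne_zero (hy0 j))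
      fun j i => y ⟨j, i⟩] at h2
    exact mul_ne_zero (Finset.prod_ne_zero_iff.2 fun j _ => zpow_ne_zero _ (inv_ne_zero (hy0 j)))
      (left_ne_zero_of_mul hy) (h2.symm.trans h1)
  have := RingHom.ker_isPrime φ₀
  obtain ⟨W, τ, w1, w2, w3, w4, w5, w6, w7⟩ := exists_val φ hφ (by
      have h1 := hu.2.2
      rw [trdeg_eq_dim, Nat.cast_inj] at h1
      rw [(deg_pos_iff θ).1 hθ, h1, card_Ix p0 (Nm3.ne hn).1 (Nm3.ne hn).2.1 (Nm3.ne hn).2.2])
    sA hs (RingHom.ker φ₀) fun x => by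
      rw [RingHom.mem_ker, ← hsA, e₀, eqc, pf_scf (T.hom _) hL.cp.1
        (fun j => inv_ne_zero (hi₀ j)) (hL.on _), coeff_zero]
  let ρ : R →ₐ[ℂ] Rf W :=
    ⟨(plV W).φ.comp ((φ : R →+* L).codRestrict W.1 w2), fun c =>
      ((plV W).r_eq (w2 _)).symm.trans ((congrArg _ (φ.commutes c)).trans (lnr_plV W c))⟩
  have hρ : ∀ r, (plV W).r (φ r) = ρ r := fun r => (plV W).r_eq (w2 r)
  have hk : ∀ r, ρ r = 0 → φ₀ r = 0 := fun r h =>
    w3 r ((Pl.r_eq_zero (p := plV W) (w2 r)).1 ((hρ r).trans h))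
  let g : (j : J) → io j → (Rf W)[X] := fun j i => (F j i).map (ρ : R →+* Rf W)
  have g1 : ∀ j i, (g j i).natDegree ≤ d j := fun j i => natDegree_map_le.trans (F1 j i)
  have g2 : ∀ j, (g j (i₀ j)).coeff (d j) = 1 := fun j => by rw [coeff_map, F2, map_one]
  have e1 : ∀ j i l, s j * ((ξ.map θ).f j i).coeff l = φ ((F j i).coeff l) := fun j i l =>
    ((coeff_map _ _).symm.trans ((congrArg (coeff · l) (congrFun (congrFun e j) i)).trans
      (coeff_C_mul _))).symm
  have e2 : ∀ j i l, φ₀ ((F j i).coeff l) = ((f j (i₀ j)).coeff (d j))⁻¹ * (f j i).coeff l :=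
    fun j i l => (coeff_map _ _).symm.trans
      ((congrArg (coeff · l) (congrFun (congrFun e₀ j) i)).trans (coeff_C_mul _))
  have := Geo.essFT_Rf w1
  refine ⟨W, s, g, τ, fun x => (plV W).r (τ * φ (sA x)), w1,
    ⟨fun j i l => e1 j i l ▸ w2 _, fun j i l => by rw [e1, hρ, coeff_map]; rfl,
      fun j => ⟨_, _, g2 j⟩⟩,
    hM T d ν j₁ f hL _ g g1 (fun j => ⟨i₀ j, fun h => one_ne_zero ((g2 j).symm.trans
      (by rw [h, coeff_zero]))⟩) ?_ ?_ ?_,
    fun y => by rw [← e, hsA]; exact w5 y, fun y => by rw [← e, hsA], w6,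
    w7 _ (fun v => (le_sup_left : cfl g ≤ _) ?_) le_sup_right⟩
  · -- the curve satisfies the relations of the line
    intro q κ hq h1
    let α := IsScalarTower.toAlgHom ℂ (Rf W) (AlgebraicClosure (Rf W))
    have hcp : Cp d g := cp_gen (φ₀ : R →+* K) (ρ : R →+* Rf W) hk F1 (fun j => ⟨_, F2 j⟩) (by
      rw [e₀]
      have := inf_of_alg K
      unfold scf
      simpa [mob_one (hL.cp.1 _ _)] using
        cp_mob hL.cp (g := 1) (by simp) fun j => inv_ne_zero (hi₀ j))
    have hcp' := hcp.map (α : Rf W →+* AlgebraicClosure (Rf W))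
    have hon : ∀ x, pf g (T.F x) = 0 := fun x => Polynomial.ext fun l => by
      by_cases hl : l < dot (T.k x) d + 1
      · exact (hsA ρ ⟨x, l, hl⟩).trans ((hρ _).symm.trans
          ((Pl.r_eq_zero (p := plV W) (w2 _)).2 (w4 _)))
      · exact coeff_eq_zero_of_natDegree_lt ((hv_pf (T.hom x) g1).1.trans_lt (by omega))
    refine map_injective _ α.injective ((pf_map α g q).symm.trans ?_)
    rw [Polynomial.map_zero]
    refine pf_eq_zero hq hcp'.1 fun t => hL.sw q κ hq h1 _ _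
      ⟨_, _, _, inferInstance, AlgHom.id ℂ _, Tr.leaf d _, fun _ => ((), some t), fun _ _ => 1,
        ⟨hcp'.1, cp_hv hcp'⟩, rfl, fun u x => ?_, fun _ _ => one_ne_zero,
        fun _ j i => (one_mul _).symm⟩
    refine ((hv_pf (T.hom x) hcp'.1).2 u.2).symm.trans ?_
    rw [pf_map]
    change hv _ ((pf g (T.F x)).map _) _ = 0
    rw [hon]
    rcases u.2 with _ | t <;> simp [hv]
  · -- the base point is generic
    let w : {v : Vr io // ν v.1 ≠ 0} → R := fun v => (F v.1.1 v.1.2).coeff 0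
    have h1 : IntermediateField.adjoin ℂ (Set.range fun v => φ₀ (w v)) = ⊤ := by
      rw [eq_top_iff, ← hL.gen, bas, IntermediateField.adjoin_le_iff]
      rintro _ ⟨j, i, i', hj, rfl⟩
      rw [← mul_div_mul_left _ _ (inv_ne_zero (hi₀ j)), ← e2, ← e2]
      exact div_mem (IntermediateField.subset_adjoin _ _ ⟨⟨⟨j, i⟩, hj⟩, rfl⟩)
        (IntermediateField.subset_adjoin _ _ ⟨⟨⟨j, i'⟩, hj⟩, rfl⟩)
    have : Algebra.IsAlgebraic (Algebra.adjoin ℂ (Set.range fun v => φ₀ (w v))) K := by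
      rw [← IntermediateField.isAlgebraic_adjoin_iff_top, h1, Algebra.isAlgebraic_iff_isIntegral]
      exact Algebra.isIntegral_of_surjective IntermediateField.topEquiv.surjective
    obtain ⟨t, ht, hb⟩ := exists_isTranscendenceBasis_subset (R := ℂ)
      (Set.range fun v => φ₀ (w v))
    choose v hv using fun x : t => ht x.2
    have h2 := hb.cardinalMk_eq_trdeg
    rw [trdeg_eq_dim, hL.dm] at h2
    have : Finite t := ((Set.finite_range _).subset ht).to_subtype
    rw [← show Nat.card t = ∑ j, ν j by rw [Nat.card, h2, Cardinal.toNat_natCast]]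
    refine le_dim _ (x := fun x => ρ (w (v x))) (algebraicIndependent_iff.2 fun Q hQ =>
      hb.1.eq_zero_of_aeval_eq_zero Q ?_) fun x => IntermediateField.subset_adjoin _ _
        ⟨_, (v x).1.2, i₀ _, (v x).2, ?_⟩
    · rw [← MvPolynomial.comp_aeval_apply] at hQ
      have h3 := hk _ hQ
      rwa [MvPolynomial.comp_aeval_apply, funext hv] at h3
    · have h3 := g2 (v x).1.1
      rw [hL.zero _ (v x).2] at h3
      beta_reduce
      rw [h3, div_one, coeff_map]
      rfl
  · obtain ⟨i, i', h⟩ := exists_minor hL.cp hL.one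
    refine ⟨i, i', fun h1 => h ?_⟩
    have h2 := hk ((F j₁ i).coeff 0 * (F j₁ i').coeff 1 - (F j₁ i').coeff 0 * (F j₁ i).coeff 1) (by
      simpa only [map_sub, map_mul, sub_eq_zero, g, coeff_map, RingHom.coe_coe] using h1)
    rw [map_sub, map_mul, map_mul, e2, e2, e2, e2] at h2
    have := hi₀ j₁
    field_simp at h2
    linear_combination h2
  · rcases v with ⟨j, p, hp⟩ | ⟨q, hq⟩
    · refine IntermediateField.subset_adjoin _ _ ⟨j, p.1, i₀ j, p.2, d j, ?_⟩
      rw [g2, div_one, hρ, coeff_map, coeff_fm, cf, dif_neg hp]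
      rfl
    · have h3 : ({q, a, b, c} : Finset M).card = 4 := by
        rw [Finset.card_insert_of_notMem (by simp [hq]), Finset.card_eq_three.mpr
          ⟨a, b, c, (Nm3.ne hn).1, (Nm3.ne hn).2.1, (Nm3.ne hn).2.2, rfl⟩]
      have h4 := Finset.card_le_univ ({q, a, b, c} : Finset M)
      omega

end Crest.Agent.X262.Ex19
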