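import Crest.Agent.X262.Ends.Rees
import Crest.Agent.X262.Geo.Val
import Crest.Agent.R003.Kr576
import Crest.Agent.R276.FGSub_595

/-!
# Row 262, road B, ENDS (helper19), part 1: a Rees valuation along a component

* `le_dim`     : independent elements of a subfield;
* `exists_val` : a divisorial valuation centred on a component of `V(s)` through a given prime,
  whose residue field is algebraic over the field of the centre and of the normal direction.
-/

set_option autoImplicit false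

open MvPolynomial IsLocalRing

noncomputable section

namespace Crest.Agent.X262.Ex19

open Crest.Agent.X277 Crest.Agent.X277.BD Crest.Agent.X277.Pst Crest.Agent.X277.BD.Cyc
open Crest.Agent.R276.DivVal_858 (ResInd)

variable {L : Type} [Field L] [Algebra ℂ L] [Algebra.EssFiniteType ℂ L]

theorem le_dim (S : IntermediateField ℂ L) {ι : Type} [Finite ι] {x : ι → L}
    (hx : AlgebraicIndependent ℂ x) (h : ∀ i, x i ∈ S) : Nat.card ι ≤ dim ℂ S := by
  have := R276.FGSub_595.essFiniteType_of_tower ℂ S L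
  have h1 := (AlgebraicIndependent.of_comp S.val (x := fun i => (⟨x i, h i⟩ : S))
    hx).cardinalMk_le_trdeg
  rw [trdeg_eq_dim, ← Nat.cast_card] at h1
  exact_mod_cast h1

theorem exists_val {σ ι : Type} [Finite σ] [Fintype ι] (φ : MvPolynomial σ ℂ →ₐ[ℂ] L)
    (hφ : Function.Injective φ) (hd : dim ℂ L = Nat.card σ) (s : ι → MvPolynomial σ ℂ)
    (hs : s ≠ 0) (P₀ : Ideal (MvPolynomial σ ℂ)) [P₀.IsPrime] (h0 : ∀ i, s i ∈ P₀) :
    ∃ (W : RZ ℂ L) (τ : L), Dvs W ∧ (∀ r, φ r ∈ W.1) ∧ (∀ r, W.v (φ r) < 1 → r ∈ P₀) ∧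
      (∀ i, W.v (φ (s i)) < 1) ∧ (∀ i, τ * φ (s i) ∈ W.1) ∧
      (fun i => (plV W).r (τ * φ (s i))) ≠ 0 ∧
      ∀ S : IntermediateField ℂ (Rf W), (∀ v, (plV W).r (φ (X v)) ∈ S) →
        qf ℂ (fun i => (plV W).r (τ * φ (s i))) ≤ S → dim ℂ (Rf W) ≤ dim ℂ S := by
  classical
  obtain ⟨P, hP, hle⟩ := Ideal.exists_minimalPrimes_le
    (Ideal.span_le.2 (Set.range_subset_iff.2 h0) : Ideal.span (Set.range s) ≤ P₀)
  have := hP.1.1
  have hsP : ∀ i, s i ∈ P := fun i => hP.1.2 (Ideal.subset_span ⟨i, rfl⟩)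
  let O := Localization.AtPrime P
  let a := algebraMap (MvPolynomial σ ℂ) O
  have hu : ∀ y : P.primeCompl, IsUnit (φ.toRingHom y) := fun y =>
    Ne.isUnit fun h => y.2 (by rw [hφ (h.trans (map_zero φ).symm)]; exact P.zero_mem)
  let _ : Algebra O L := (IsLocalization.lift hu).toAlgebra
  have ha : ∀ r, algebraMap O L (a r) = φ r := IsLocalization.lift_eq hu
  have hm : ∀ r, a r ∈ maximalIdeal O ↔ r ∈ P := IsLocalization.AtPrime.to_map_mem_maximal_iff O P
  have hinj : Function.Injective (algebraMap O L) := (injective_iff_map_eq_zero _).2 fun x hx => by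
    obtain ⟨⟨r, y⟩, rfl⟩ := IsLocalization.mk'_surjective P.primeCompl x
    have h1 := congrArg (algebraMap O L) (IsLocalization.mk'_spec O r y)
    rw [map_mul, hx, zero_mul, ha] at h1
    rw [hφ (h1.symm.trans (map_zero φ).symm)]
    exact IsLocalization.mk'_zero _
  obtain ⟨i₀, hi₀⟩ := Function.ne_iff.1 hs
  obtain ⟨l, t, V, h1, h2, h3, h4, h5, h6, h7⟩ := Ends.rees (k := ℂ) hinj (s := fun i => a (s i))
    (fun p hp h => by
      have h8 : p.under (MvPolynomial σ ℂ) ≤ P := fun r hr => (hm r).1 (le_maximalIdeal hp.ne_top hr)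
      rw [← IsLocalization.map_under P.primeCompl O p, le_antisymm h8
        (hP.2 ⟨inferInstance, Ideal.span_le.2 (Set.range_subset_iff.2 h)⟩ h8),
        Localization.AtPrime.map_eq_maximalIdeal])
    (fun i => (hm _).2 (hsP i)) fun h => hi₀ (hφ (by
      have h8 := (hm _).2 (hsP i₀)
      rw [h, Ideal.mem_bot] at h8
      rw [← ha, h8, map_zero, Pi.zero_apply, map_zero]))
  have hV : ∀ r, φ r ∈ V := fun r => ha r ▸ h4 _
  let W : RZ ℂ L := ⟨V, fun c => φ.commutes c ▸ hV _⟩
  have hc : ∀ r, V.valuation (φ r) < 1 ↔ r ∈ P := fun r => by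
    rw [← hm, ← ha, ← aeval_C (fun j : Fin l => algebraMap O L (t j.succ) / algebraMap O L (t 0)),
      h7]
    exact ⟨fun h => by simpa using h 0, fun h n => by
      rw [coeff_C]; split_ifs; exacts [h, zero_mem _]⟩
  obtain ⟨κ, _, j, hj, hk⟩ := R003.card_le_height_add ℂ σ P
  let y : Fin l ⊕ κ → L := Sum.elim (fun k => algebraMap O L (t k.succ) / algebraMap O L (t 0))
    fun i => φ (X (j i))
  have h8 : ∀ k, algebraMap O L (t k) / algebraMap O L (t 0) ∈ V := fun k =>
    (RZ.le_iff (V := W) h3).1 (h6 k)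
  have hy : ResInd ℂ V y := by
    refine ⟨fun i => by rcases i with k | i; exacts [h8 _, hV _], fun Q hQ => ?_⟩
    let ψ : MvPolynomial κ ℂ →+* O := a.comp (rename j : _ →ₐ[ℂ] _)
    have e : aeval y Q = aeval (fun k : Fin l => algebraMap O L (t k.succ) / algebraMap O L (t 0))
        (MvPolynomial.map ψ (sumAlgEquiv ℂ _ _ Q)) := by
      clear hQ
      induction Q using MvPolynomial.induction_on with
      | C c => simp [ψ, ha]
      | add p q hp hq => simp only [map_add, hp, hq]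
      | mul_X p n hp => rcases n with k | i <;> simp [hp, y, ψ, ha]
    obtain ⟨n, hn⟩ := MvPolynomial.ne_zero_iff.1 ((map_ne_zero_iff _
      (sumAlgEquiv ℂ (Fin l) κ).injective).2 hQ)
    rw [e]
    refine le_antisymm (Ends.val_aeval_le _ (fun x => V.valuation_le_one_iff _ |>.2 (h4 x))
      (fun k => V.valuation_le_one_iff _ |>.2 (h8 _)) _) (not_lt.1 fun h => hn (hj _ ?_))
    have h9 := (h7 _).1 h n
    rw [coeff_map] at h9
    exact (hm _).1 h9
  have hcard : dim ℂ L ≤ Nat.card (Fin l ⊕ κ) + 1 := by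
    have h9 : P.height ≤ (l + 1 : ℕ) := by
      rw [← Localization.AtPrime.under_maximalIdeal (I := P),
        IsLocalization.height_under P.primeCompl]
      exact h1
    have h10 := hk.trans (add_le_add h9 le_rfl)
    rw [hd, Nat.card_sum, Nat.card_eq_fintype_card (α := Fin l), Fintype.card_fin]
    have h11 : Nat.card σ ≤ l + 1 + Nat.card κ := by exact_mod_cast h10
    omega
  have hne : V ≠ ⊤ := fun h => hi₀ (hφ (by
    have h9 := (hc _).2 (hsP i₀)
    by_contra h10
    rw [Pi.zero_apply, map_zero] at h10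
    have h11 := (V.valuation_le_one_iff (φ (s i₀))⁻¹).2 (h ▸ trivial)
    rw [map_inv₀, inv_le_one₀ (RZ.pos (V := W) h10)] at h11
    exact h11.not_gt h9))
  have hW : Dvs W := by
    have := Fintype.ofFinite κ
    obtain ⟨e⟩ := Function.Embedding.nonempty_of_card_le (α := Fin (dim ℂ L - 1)) (β := Fin l ⊕ κ)
      (by rw [Fintype.card_fin, ← Nat.card_eq_fintype_card]; omega)
    exact R276.DivVal_858.isDiv_iff.2 ⟨W.2, hne, y ∘ e, fun i => hy.1 _, fun Q hQ => by
      rw [← aeval_rename]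
      exact hy.2 _ ((map_ne_zero_iff _ (rename_injective _ e.injective)).2 hQ)⟩
  have hτ : ∀ i, (algebraMap O L (t 0))⁻¹ * φ (s i) ∈ V := fun i => by
    rw [← ha, ← div_eq_inv_mul]
    exact (RZ.le_iff (V := W) h3).1 (h5 i)
  have hsum : ∀ k, ∃ c : ι → ℂ, (plV W).r (algebraMap O L (t k) / algebraMap O L (t 0)) =
      ∑ i, c i • (plV W).r ((algebraMap O L (t 0))⁻¹ * φ (s i)) := fun k => by
    obtain ⟨c, hc⟩ := (Submodule.mem_span_range_iff_exists_fun ℂ).1 (h2 k)
    refine ⟨c, ?_⟩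
    have e := (Geo.r_aeval (lnr_plV W) hτ (∑ i, C (c i) * X i)).2
    simp only [map_sum, map_mul, aeval_C, aeval_X, ← Algebra.smul_def] at e
    rw [← e, ← hc, map_sum, Finset.sum_div]
    congr 1
    refine Finset.sum_congr rfl fun i _ => ?_
    rw [Algebra.smul_def, Algebra.smul_def, map_mul,
      IsScalarTower.algebraMap_apply ℂ (MvPolynomial σ ℂ) O, ha, ha, φ.commutes]
    ring
  obtain ⟨c, hc0⟩ := hsum 0
  rw [div_self h3, Pl.r_one] at hc0
  have hu0 : (fun i => (plV W).r ((algebraMap O L (t 0))⁻¹ * φ (s i))) ≠ 0 := fun h =>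
    one_ne_zero (hc0.trans (Finset.sum_eq_zero fun i _ => by rw [congrFun h i]; simp))
  refine ⟨W, _, hW, hV, fun r h => hle ((hc r).1 h), fun i => (hc _).2 (hsP i), hτ, hu0,
    fun S hS hq => ?_⟩
  set u := fun i => (plV W).r ((algebraMap O L (t 0))⁻¹ * φ (s i))
  obtain ⟨x, hx⟩ := Function.ne_iff.1 hu0
  have hx' : u x ≠ 0 := hx
  have h9 : (u x)⁻¹ ∈ S := by
    rw [← one_div, hc0, Finset.sum_div]
    exact sum_mem fun i _ => by
      rw [smul_div_assoc]; exact S.smul_mem (hq (div_mem_qf u x i))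
  have h10 : ∀ i, u i ∈ S := fun i => by
    simpa [hx'] using div_mem (hq (div_mem_qf u x i)) h9
  have := Geo.essFT_Rf hW
  have h11 := le_dim S ((Geo.resInd_iff (lnr_plV W) hy.1).1 hy) fun i => by
    rcases i with k | i
    · obtain ⟨c, hc⟩ := hsum k.succ
      exact hc ▸ sum_mem fun i _ => S.smul_mem (h10 i)
    · exact hS _
  have h12 := Geo.dim_Rf' hW
  omega

end Crest.Agent.X262.Ex19
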